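import Vale.Agent.P144U.Defs

/-!
The windows of a sharp convex tip.
-/

namespace Vale.Agent.P144Z

open Finset GeoA

namespace WAn

variable {S : Set (ℤ × ℤ)} {ν : ℂ} {κ : ℝ} {G G' : ℤ × ℤ → Prop}

theorem mono (h : ∀ x, G x → G' x) {u w : ℤ × ℤ} (k : Rch G u w) : Rch G' u w :=
  Relation.ReflTransGen.mono (fun _ _ o => ⟨h _ o.1, h _ o.2.1, o.2.2⟩) _ _ k

theorem zd_iff {x c : ℤ × ℤ} {r : ℕ} :
    zd x c ≤ r ↔ c.1 ≤ x.1 + r ∧ x.1 ≤ c.1 + r ∧ c.2 ≤ x.2 + r ∧ x.2 ≤ c.2 + r := by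
  unfold zd
  omega

/-- The intersection of two squares is connected. -/
theorem rch_two {a b c d : ℤ × ℤ} {r ρ : ℕ} (h : ∀ x, zd x c ≤ r → zd x d ≤ ρ → G x)
    (ha : zd a c ≤ r) (ha' : zd a d ≤ ρ) (hb : zd b c ≤ r) (hb' : zd b d ≤ ρ) : Rch G b a := by
  obtain ⟨n, hn⟩ : ∃ n, (b.1 - a.1).natAbs + (b.2 - a.2).natAbs ≤ n := ⟨_, le_rfl⟩
  induction n generalizing b with
  | zero =>
    have : b = a := Prod.ext (by omega) (by omega)
    exact this ▸ Relation.ReflTransGen.refl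
  | succ n ih =>
    have step : ∀ e : ℤ × ℤ, (e = (1, 0) ∨ e = (0, 1) ∨ e = (-1, 0) ∨ e = (0, -1)) →
        zd (b + e) c ≤ r → zd (b + e) d ≤ ρ →
        ((b + e).1 - a.1).natAbs + ((b + e).2 - a.2).natAbs ≤ n → Rch G b a := fun e he h1 h2 h3 =>
      Relation.ReflTransGen.head
        ⟨h b hb hb', h _ h1 h2, by rcases he with rfl | rfl | rfl | rfl <;> simp⟩ (ih h1 h2 h3)
    simp only [zd_iff, Prod.fst_add, Prod.snd_add] at ha ha' hb hb' step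
    rcases lt_trichotomy b.1 a.1 with h1 | h1 | h1
    · refine step (1, 0) (by simp) ?_ ?_ ?_ <;> omega
    · rcases lt_trichotomy b.2 a.2 with h2 | h2 | h2
      · refine step (0, 1) (by simp) ?_ ?_ ?_ <;> omega
      · have : b = a := Prod.ext h1 h2
        exact this ▸ Relation.ReflTransGen.refl
      · refine step (0, -1) (by simp) ?_ ?_ ?_ <;> omega
    · refine step (-1, 0) (by simp) ?_ ?_ ?_ <;> omega

theorem zr {u v : ℤ × ℤ} {n : ℕ} (h : zd u v ≤ n) :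
    |(u.1 : ℝ) - v.1| ≤ n ∧ |(u.2 : ℝ) - v.2| ≤ n := by
  have : |u.1 - v.1| ≤ n ∧ |u.2 - v.2| ≤ n := by
    simp only [zd, abs_le] at h ⊢
    omega
  exact_mod_cast this

theorem ht_sub (ν : ℂ) (u v : ℤ × ℤ) : ht ν (u - v) = ht ν u - ht ν v := by
  simp only [ht, Prod.fst_sub, Prod.snd_sub, Int.cast_sub]
  ring

theorem ht_le (hν : ‖ν‖ = 1) {u v : ℤ × ℤ} {n : ℕ} (h : zd u v ≤ n) :
    -(2 * n) ≤ ht ν u - ht ν v ∧ ht ν u - ht ν v ≤ 2 * n := by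
  have a := abs_le.1 (abs_mul_le (zr h).1 (abs_re hν))
  have b := abs_le.1 (abs_mul_le (zr h).2 (abs_im hν))
  unfold ht
  constructor <;> linarith [a.1, a.2, b.1, b.2]

theorem len_le' {u v : ℤ × ℤ} {n : ℕ} (h : zd u v ≤ n) : len (u - v) ≤ 2 * n := by
  have := len_le (u - v)
  simp only [Prod.fst_sub, Prod.snd_sub, Int.cast_sub] at this
  linarith [(zr h).1, (zr h).2]

/-- The wall is close to the line through the origin. -/
theorem wall (h : Epi S ν κ) (hν : ‖ν‖ = 1) (h0 : 0 ≤ κ)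
    (w : (∃ f ∈ S, zd f 0 ≤ 2) ∧ ∃ f, f ∉ S ∧ zd f 0 ≤ 2) {R : ℕ} {E : ℝ}
    (hE : κ * (2 * (R + 2)) + 4 ≤ E) {v : ℤ × ℤ} (hv : zd v 0 ≤ R) :
    (v ∉ S → ht ν v ≤ E) ∧ (v ∈ S → -E ≤ ht ν v) := by
  obtain ⟨⟨f, h1, h2⟩, g, h3, h4⟩ := w
  have z : ht ν 0 = 0 := by simp [ht]
  have k : ∀ x, zd x 0 ≤ 2 → zd v x ≤ R + 2 := fun x hx => by
    have := zd_tri v 0 x
    rw [zd_comm 0] at this
    omega
  have a := mul_le_mul_of_nonneg_left (len_le' (k f h2)) h0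
  have b := mul_le_mul_of_nonneg_left (len_le' (zd_comm v g ▸ k g h4)) h0
  have c := ht_le hν h2
  have d := ht_le hν h4
  push_cast at a b c d
  refine ⟨fun o => by_contra fun o' => o ?_, fun o => by_contra fun o' => epi_out h h3 ?_ o⟩
  · simpa using h f h1 (v - f) (by rw [ht_sub]; linarith [c.2])
  · rw [ht_sub]
    linarith [d.1]

/-- The outside of a wall is connected. -/
theorem connH (h : Epi S ν (1 / 8)) (hν : ‖ν‖ = 1) {b f x : ℤ × ℤ} {σ : ℕ} (hf : f ∉ S)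
    (hx : x ∉ S) (h1 : zd f b ≤ σ) (h2 : zd x b ≤ σ) :
    Rch (fun v => v ∉ S ∧ zd v b ≤ 9 * σ + 13) f x := by
  obtain ⟨e, he, he'⟩ := exists_best hν
  have hab : 8 * (1 / 8) ≤ ν.re * ν.re + ν.im * ν.im := by linarith [sq_add hν]
  have k : ∀ v, v ∉ S → zd v b ≤ σ → Rch (fun v => v ∉ S ∧ zd v b ≤ 9 * σ + 13) v
      (ray v e ν.re ν.im (6 * σ)) := fun v o o' =>
    rch_ray h hν (by norm_num) le_rfl (abs_re hν) (abs_im hν) hab o he he' fun y p p' =>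
      ⟨p, by have := zd_tri y v b; omega⟩
  refine (k f hf h1).trans ((k x hx h2).trans (rch_box (D := 2 * σ) (fun y hy => ?_) ?_)).symm
  · refine ⟨deep h hν (by norm_num) le_rfl (abs_re hν) (abs_im hν) hab hf he he' hy
      (by push_cast; linarith), ?_⟩
    have := zd_ray (abs_re hν) (abs_im hν) f (unit_le he) (6 * σ)
    have := zd_tri y (ray f e ν.re ν.im (6 * σ)) f
    have := zd_tri y f b
    omega
  · simp only [zd_iff, ray] at h1 h2 ⊢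
    omega

theorem fl {l : ℝ} (h0 : 0 ≤ l) (h1 : l ≤ 1) {p q c : ℤ} {t : ℕ} (hp : (p - c).natAbs ≤ t)
    (hq : (q - c).natAbs ≤ t) {n : ℕ} (hn : l * (2 * t) ≤ n) :
    ∃ y : ℤ, (y - c).natAbs ≤ t ∧ (y - q).natAbs ≤ n ∧ |y - (q + l * (p - q))| ≤ 1 := by
  obtain ⟨d, rfl⟩ : ∃ d, p = q + d := ⟨p - q, by ring⟩
  have hd : |l * d| ≤ n := by
    have : |d| ≤ 2 * t := abs_le.2 (by omega)
    rw [abs_mul, abs_of_nonneg h0]
    exact (mul_le_mul_of_nonneg_left (by exact_mod_cast this) h0).trans hn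
  have a := Int.floor_le (l * d)
  have b := Int.lt_floor_add_one (l * d)
  have c : -(n : ℤ) ≤ ⌊l * d⌋ := Int.le_floor.2 (by push_cast; exact (abs_le.1 hd).1)
  have c' : ⌊l * d⌋ ≤ n := by exact_mod_cast a.trans (abs_le.1 hd).2
  refine ⟨q + ⌊l * d⌋, ?_, by omega, abs_le.2 (by push_cast; constructor <;> linarith)⟩
  rcases le_total 0 d with h | h
  · have h' : (0 : ℝ) ≤ d := by exact_mod_cast h
    have e : 0 ≤ ⌊l * d⌋ := Int.floor_nonneg.2 (mul_nonneg h0 h')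
    have e' : ⌊l * d⌋ ≤ d := by exact_mod_cast a.trans (mul_le_of_le_one_left h' h1)
    omega
  · have h' : (d : ℝ) ≤ 0 := by exact_mod_cast h
    have e : d ≤ ⌊l * d⌋ := Int.le_floor.2 (by nlinarith)
    have e' : ⌊l * d⌋ ≤ 0 := by exact_mod_cast a.trans (mul_nonpos_of_nonneg_of_nonpos h0 h')
    omega

theorem low (hν : ‖ν‖ = 1) {c : ℤ × ℤ} {t : ℕ} (hc : 2 * zd c 0 ≤ t) :
    ∃ p, zd p c ≤ t ∧ 4 * ht ν p ≤ 1 - t := by
  obtain ⟨e, he, he'⟩ := exists_best hν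
  obtain ⟨k, hk, hk'⟩ : ∃ k : ℕ, 2 * k ≤ t ∧ t ≤ 2 * k + 1 := ⟨t / 2, by omega, by omega⟩
  refine ⟨-(k • e), ?_, ?_⟩
  · rcases he with rfl | rfl | rfl | rfl <;> simp [zd] at hc ⊢ <;> omega
  · have o : (t : ℝ) ≤ 2 * k + 1 := by exact_mod_cast hk'
    rw [show ht ν (-(k • e)) = -(k * ht ν e) by simp [ht]; ring]
    linarith [mul_le_mul_of_nonneg_left he' (Nat.cast_nonneg k)]

/-- A point of the square outside the wall. -/
theorem toQ (hν : ‖ν‖ = 1) (w : ∃ f, f ∉ S ∧ zd f 0 ≤ 2) {c b q f : ℤ × ℤ} {t m : ℕ}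
    (hc : 2 * zd c 0 ≤ t) (h4 : 4 ≤ t) (hm : 1 ≤ m)
    (hW : ∀ v, zd v b ≤ 81 * m → (v ∉ S → ht ν v ≤ m) ∧ (v ∈ S → -m ≤ ht ν v))
    (hq : zd q c ≤ t) (hq' : zd q b ≤ m) (hf : f ∉ S) (hf' : zd f b ≤ m) :
    ∃ x, x ∉ S ∧ zd x c ≤ t ∧ zd x b ≤ 81 * m := by
  rcases le_total t (40 * m) with h | h
  · obtain ⟨x, h1, h2⟩ := w
    have := zd_tri x 0 c
    have := zd_tri x c q
    have := zd_tri x q b
    rw [zd_comm] at hc hq
    exact ⟨x, h1, by omega, by omega⟩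
  have t0 : (0 : ℝ) < t := by exact_mod_cast (by omega : 0 < t)
  have m1 : (1 : ℝ) ≤ m := by exact_mod_cast hm
  obtain ⟨l, l0, l1, hl⟩ : ∃ l : ℝ, 0 ≤ l ∧ l ≤ 1 ∧ l * t = 40 * m :=
    ⟨40 * m / t, by positivity, (div_le_one t0).2 (by exact_mod_cast h), div_mul_cancel₀ _ t0.ne'⟩
  obtain ⟨p, hp, hp'⟩ := low hν hc
  have g : l * (2 * t) ≤ (80 * m : ℕ) := by
    push_cast
    linarith
  obtain ⟨y, y0, y1, y2⟩ := fl l0 l1 (max_le_iff.1 hp).1 (max_le_iff.1 hq).1 g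
  obtain ⟨z, z0, z1, z2⟩ := fl l0 l1 (max_le_iff.1 hp).2 (max_le_iff.1 hq).2 g
  have b1 : zd (y, z) b ≤ 81 * m :=
    (zd_tri _ q _).trans ((add_le_add (max_le y1 z1) hq').trans (by omega))
  refine ⟨_, fun o => ?_, max_le y0 z0, b1⟩
  have o1 := (hW _ b1).2 o
  have o2 := (hW f (by omega)).1 hf
  have o3 := (ht_le hν ((zd_tri q b f).trans (add_le_add hq' (zd_comm f b ▸ hf')))).2
  have o4 := (abs_le.1 (abs_mul_le y2 (abs_re hν))).2
  have o5 := (abs_le.1 (abs_mul_le z2 (abs_im hν))).2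
  have o7 := mul_le_mul_of_nonneg_left hp' l0
  have o9 := mul_le_mul_of_nonneg_left (show ht ν q ≤ 5 * m by push_cast at o3; linarith)
    (sub_nonneg.2 l1)
  have o11 := mul_nonneg l0 (zero_le_one.trans m1)
  simp only [ht] at o1 o7 o9
  linarith

theorem strip {p q p' q' x y u v m n : ℝ} (h1 : p ^ 2 + q ^ 2 = 1) (a1 : |p| ≤ 1) (a2 : |q| ≤ 1)
    (a3 : |p'| ≤ 1) (a4 : |q'| ≤ 1) (h3 : p * p' + q * q' ≤ -(1 / 2)) (hA : |x * p + y * q| ≤ 3 * n)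
    (hA' : |x * p' + y * q'| ≤ 3 * n) (hb : m ≤ |x| ∨ m ≤ |y|) (hu : |u| ≤ m) (hv : |v| ≤ m)
    (k : -n ≤ (x + u) * p + (y + v) * q) (k' : -n ≤ (x + u) * p' + (y + v) * q') :
    |u * p + v * q| ≤ 32 * n := by
  have X : |p * q' - q * p'| * m ≤ 6 * n := by
    rcases hb with hb | hb <;> refine (mul_le_mul_of_nonneg_left hb (abs_nonneg _)).trans ?_ <;>
      rw [← abs_mul]
    · rw [show _ * x = (x * p + y * q) * q' - (x * p' + y * q') * q by ring]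
      linarith [abs_sub ((x * p + y * q) * q') ((x * p' + y * q') * q), abs_mul_le hA a4,
        abs_mul_le hA' a2]
    · rw [show _ * y = (x * p' + y * q') * p - (x * p + y * q) * p' by ring]
      linarith [abs_sub ((x * p' + y * q') * p) ((x * p + y * q) * p'), abs_mul_le hA a3,
        abs_mul_le hA' a1]
  have Y : |(p * q' - q * p') * (v * p - u * q)| ≤ 12 * n := by
    have : |v * p - u * q| ≤ 2 * m := by
      linarith [abs_sub (v * p) (u * q), abs_mul_le hv a1, abs_mul_le hu a2]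
    rw [abs_mul]
    linarith [mul_le_mul_of_nonneg_left this (abs_nonneg (p * q' - q * p'))]
  have e : u * p' + v * q' =
      (p * p' + q * q') * (u * p + v * q) + (p * q' - q * p') * (v * p - u * q) := by
    linear_combination -(u * p' + v * q') * h1
  have n0 := (abs_nonneg _).trans hA
  have b1 := (abs_le.1 hA).2
  have b2 := (abs_le.1 hA').2
  have b3 := (abs_le.1 Y).2
  refine abs_le.2 ⟨by linarith, by_contra fun o => ?_⟩
  linarith [mul_le_mul_of_nonneg_right h3 (show 0 ≤ u * p + v * q by linarith)]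

theorem cnt (F : Finset (ℤ × ℤ)) (f g : ℤ × ℤ → ℤ)
    (hi : ∀ k k', f k = f k' → g k = g k' → k = k') {a b : ℝ} (ha : 1 / 2 ≤ |a|) {m W : ℕ}
    (h1 : ∀ k ∈ F, |(g k : ℝ)| ≤ m) (h2 : ∀ k ∈ F, |f k * a + g k * b| ≤ W) :
    F.card ≤ (4 * W + 2) * (2 * m + 1) := by
  have a0 : a ≠ 0 := abs_pos.1 (by linarith)
  refine (card_le_card_of_injOn (t := Icc (-(2 * W + 1) : ℤ) (2 * W) ×ˢ Icc (-m : ℤ) m)
    (fun k => (f k + ⌊g k * b / a⌋, g k)) (fun k hk => ?_) fun k _ k' _ e => ?_).trans_eq ?_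
  · have o : |f k + g k * b / a| ≤ 2 * W := by
      have := h2 k hk
      rw [show f k * a + g k * b = (f k + g k * b / a) * a by field_simp, abs_mul] at this
      linarith [mul_le_mul_of_nonneg_left ha (abs_nonneg (f k + g k * b / a))]
    have o1 : -(2 * W + 1 : ℝ) ≤ f k + ⌊g k * b / a⌋ := by
      linarith [(abs_le.1 o).1, Int.lt_floor_add_one (g k * b / a)]
    have o2 : (f k : ℝ) + ⌊g k * b / a⌋ ≤ 2 * W := by
      linarith [(abs_le.1 o).2, Int.floor_le (g k * b / a)]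
    exact mem_coe.2 (mem_product.2 ⟨mem_Icc.2 ⟨by exact_mod_cast o1, by exact_mod_cast o2⟩,
      mem_Icc.2 (abs_le.1 (by exact_mod_cast h1 k hk))⟩)
  · obtain ⟨e1, e2⟩ := Prod.ext_iff.1 e
    simp only at e1 e2
    exact hi k k' (by rwa [e2, add_left_inj] at e1) e2
  · rw [card_product, Int.card_Icc, Int.card_Icc]
    congr 1 <;> omega

end WAn

open WAn

theorem winAnd : WinAnd := by
  refine ⟨800, by norm_num, fun K hK => ?_⟩
  obtain ⟨K', hK'⟩ : ∃ K', K' = 800 * (K * (400 * K)) := ⟨_, rfl⟩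
  refine ⟨K', fun α _ K₀ => ⟨1 / (4 * (K₀ + K' + 2)), by positivity, 8 * K₀ + 4, ?_⟩⟩
  rintro κ h0 hκ t h4 S₁ S₂ ν₁ ν₂ c ⟨h, hs⟩ hc b s hts hb
  have s8 : 8 ≤ s := by_contra fun o => by
    have := Nat.mul_le_mul_left K₀ (not_le.1 o).le
    omega
  have s8' : (8 : ℝ) ≤ s := by exact_mod_cast s8
  rw [le_div_iff₀ (by positivity)] at hκ
  have k0 : 0 ≤ κ * (K₀ + K') := by positivity
  have k8 : κ ≤ 1 / 8 := by linarith
  have hE : κ * (2 * ((K₀ * s + K' * s : ℕ) + 2)) + 4 ≤ s := by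
    push_cast
    nlinarith [mul_le_mul_of_nonneg_right hκ (Nat.cast_nonneg s)]
  have z : ∀ v, zd v b ≤ K' * s → zd v 0 ≤ K₀ * s + K' * s := fun v hv => by
    have := zd_tri v b 0
    omega
  have W₁ := fun v hv => wall h.e₁ h.n₁ h0 h.w₁ hE (z v hv)
  have W₂ := fun v hv => wall h.e₂ h.n₂ h0 h.w₂ hE (z v hv)
  have e₁ := epi_mono h.e₁ k8
  have e₂ := epi_mono h.e₂ k8
  have D : ∀ v, v ∈ DugU false S₁ S₂ c t ↔ (v ∈ S₁ ∧ v ∈ S₂) ∧ t < zd v c := fun _ => Iff.rfl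
  obtain ⟨n, hn⟩ : ∃ n, n = K * s := ⟨_, rfl⟩
  obtain ⟨m, hm⟩ : ∃ m, m = K * (400 * K * s) := ⟨_, rfl⟩
  have n1 : s ≤ n := hn ▸ Nat.le_mul_of_pos_left _ hK
  have n2 : m = 400 * (K * n) := by rw [hm, hn]; ring
  have n3 : n ≤ K * n := Nat.le_mul_of_pos_left _ hK
  have n4 : K' * s = 800 * m := by rw [hK', hm]; ring
  have n5 : s ≤ 400 * K * s := Nat.le_mul_of_pos_left _ (by omega)
  have r1 : (s : ℝ) ≤ n := by exact_mod_cast n1
  have r2 : (s : ℝ) ≤ m := by exact_mod_cast (by omega : s ≤ m)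
  rw [n4] at W₁ W₂ ⊢
  by_cases hQ : ∃ q, zd q c ≤ t ∧ zd q b ≤ m
  · obtain ⟨q, hq, hq'⟩ := hQ
    have sq : ∀ f, zd f c ≤ t → zd f b ≤ 81 * m →
        Rch (fun v => v ∉ DugU false S₁ S₂ c t ∧ zd v b ≤ 800 * m) f q := fun f o o' =>
      rch_two (fun x k k' => ⟨fun k'' => absurd k''.2 (not_lt.2 k), by omega⟩) hq
        (hq'.trans (by omega)) o o'
    have one : ∀ (S : Set (ℤ × ℤ)) (ν : ℂ), Epi S ν (1 / 8) → ‖ν‖ = 1 → (∃ f, f ∉ S ∧ zd f 0 ≤ 2) →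
        (∀ v, zd v b ≤ 800 * m → (v ∉ S → ht ν v ≤ s) ∧ (v ∈ S → -s ≤ ht ν v)) →
        (∀ v, v ∈ DugU false S₁ S₂ c t → v ∈ S) → ∀ f, f ∉ S → zd f b ≤ m →
        Rch (fun v => v ∉ DugU false S₁ S₂ c t ∧ zd v b ≤ 800 * m) f q := by
      intro S ν e hν w W o f hf hf'
      obtain ⟨x, x1, x2, x3⟩ := toQ hν w hc (by omega) (by omega) (fun v hv =>
        (W v (by omega)).imp (fun k k' => (k k').trans r2) fun k k' => (neg_le_neg r2).trans (k k'))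
        hq hq' hf hf'
      exact (mono (fun v k => ⟨fun k' => k.1 (o v k'), by omega⟩)
        (connH e hν hf x1 (hf'.trans (by omega)) x3)).trans (sq x x2 x3)
    have all : ∀ f, zd f b ≤ m → f ∉ DugU false S₁ S₂ c t →
        Rch (fun v => v ∉ DugU false S₁ S₂ c t ∧ zd v b ≤ 800 * m) f q := fun f o o' => by
      by_cases c1 : f ∈ S₁
      · by_cases c2 : f ∈ S₂
        · exact sq f (not_lt.1 fun k => o' ⟨⟨c1, c2⟩, k⟩) (by omega)
        · exact one _ _ e₂ h.n₂ h.w₂.2 W₂ (fun _ k => k.1.2) f c2 o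
      · exact one _ _ e₁ h.n₁ h.w₁.2 W₁ (fun _ k => k.1.1) f c1 o
    refine ⟨400 * K * s, n5, by omega, .inl ?_⟩
    rw [← hm]
    exact fun f f' a a' o o' => (all f a o).trans (all f' a' o').symm
  have one : ∀ (S : Set (ℤ × ℤ)) (ν : ℂ), Epi S ν (1 / 8) → ‖ν‖ = 1 →
      (∀ v, v ∈ DugU false S₁ S₂ c t → v ∈ S) → (∀ f, zd f b ≤ n → f ∈ S → f ∈ S₁ ∧ f ∈ S₂) →
      ∀ f f', zd f b ≤ n → zd f' b ≤ n → f ∉ DugU false S₁ S₂ c t → f' ∉ DugU false S₁ S₂ c t →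
        Rch (fun v => v ∉ DugU false S₁ S₂ c t ∧ zd v b ≤ 800 * n) f f' := by
    intro S ν e hν o o' f f' a a' k k'
    have i : ∀ g, zd g b ≤ n → g ∉ DugU false S₁ S₂ c t → g ∉ S := fun g p p' p'' =>
      p' ⟨o' g p p'', not_le.1 fun q => hQ ⟨g, q, by omega⟩⟩
    exact mono (fun v k => ⟨fun k' => k.1 (o v k'), by omega⟩) (connH e hν (i f a k) (i f' a' k') a a')
  by_cases c1 : ∀ f, zd f b ≤ n → f ∈ S₁ → f ∈ S₂
  · exact ⟨s, le_rfl, by omega, .inl (hn ▸ one _ _ e₁ h.n₁ (fun _ k => k.1.1)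
      fun f a k => ⟨k, c1 f a k⟩)⟩
  by_cases c2 : ∀ f, zd f b ≤ n → f ∈ S₂ → f ∈ S₁
  · exact ⟨s, le_rfl, by omega, .inl (hn ▸ one _ _ e₂ h.n₂ (fun _ k => k.1.2)
      fun f a k => ⟨c2 f a k, k⟩)⟩
  push Not at c1 c2
  obtain ⟨f, f0, f1, f2⟩ := c1
  obtain ⟨g, g0, g1, g2⟩ := c2
  have near : ∀ ν : ℂ, ‖ν‖ = 1 → ∀ f g, zd f b ≤ n → zd g b ≤ n → -s ≤ ht ν f →
      ht ν g ≤ s → |ht ν b| ≤ 3 * n := fun ν hν f g a a' k k' =>
    abs_le.2 ⟨by linarith [(ht_le hν a).2], by linarith [(ht_le hν a').1]⟩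
  have A₁ := near _ h.n₁ f g f0 g0 ((W₁ f (by omega)).2 f1) ((W₁ g (by omega)).1 g2)
  have A₂ := near _ h.n₂ g f g0 f0 ((W₂ g (by omega)).2 g1) ((W₂ f (by omega)).1 f2)
  have hb' : (m : ℝ) ≤ |(b.1 : ℝ)| ∨ (m : ℝ) ≤ |(b.2 : ℝ)| := by
    have o : ¬ zd 0 b ≤ m := fun k => hQ ⟨0, by rw [zd_comm]; omega, k⟩
    have : (m : ℤ) ≤ |b.1| ∨ (m : ℤ) ≤ |b.2| := by
      simp only [zd, Prod.fst_zero, Prod.snd_zero, Int.abs_eq_natAbs] at o ⊢
      omega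
    exact_mod_cast this
  have h3 : ν₁.re * ν₂.re + ν₁.im * ν₂.im ≤ -(1 / 2) := by
    have o := pow_le_one₀ (n := 2) (norm_nonneg _) (hs rfl)
    rw [Complex.sq_norm, Complex.normSq_apply, Complex.add_re, Complex.add_im] at o
    linarith [sq_add h.n₁, sq_add h.n₂]
  refine ⟨400 * K * s, n5, by omega, .inr ?_⟩
  rw [← hm]
  suffices H : ∀ F : Finset (ℤ × ℤ), (∀ v ∈ F, |(v.1 : ℝ)| ≤ m ∧ |(v.2 : ℝ)| ≤ m ∧
      |v.1 * ν₁.re + v.2 * ν₁.im| ≤ (32 * n : ℕ)) → K * F.card ≤ m ^ 2 by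
    refine H _ fun v hv => ?_
    simp only [mem_filter, mem_product, mem_Icc, D] at hv
    have o : zd (b + v) b ≤ m := by
      simp only [zd, Prod.fst_add, Prod.snd_add]
      omega
    have o1 := (W₁ _ (o.trans (by omega))).2 hv.2.1.1
    have o2 := (W₂ _ (o.trans (by omega))).2 hv.2.1.2
    have o3 := zr o
    simp only [ht, Prod.fst_add, Prod.snd_add, Int.cast_add, add_sub_cancel_left]
      at o1 o2 o3
    push_cast
    exact ⟨o3.1, o3.2, strip (sq_add h.n₁) (abs_re h.n₁) (abs_im h.n₁) (abs_re h.n₂) (abs_im h.n₂)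
      h3 A₁ A₂ hb' o3.1 o3.2 (by linarith) (by linarith)⟩
  intro F key
  have hc : F.card ≤ (4 * (32 * n) + 2) * (2 * m + 1) := by
    rcases le_total (1 / 2) |ν₁.re| with o | o
    · exact cnt F Prod.fst Prod.snd (fun _ _ => Prod.ext) o (fun v hv => (key v hv).2.1)
        fun v hv => (key v hv).2.2
    · exact cnt F Prod.snd Prod.fst (fun _ _ a a' => Prod.ext a' a) (a := ν₁.im) (by
        nlinarith [sq_add h.n₁, sq_abs ν₁.re, sq_abs ν₁.im, abs_nonneg ν₁.re, abs_nonneg ν₁.im,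
          abs_im h.n₁]) (fun v hv => (key v hv).1) fun v hv => by rw [add_comm]; exact (key v hv).2.2
  calc K * F.card ≤ K * (130 * n * (3 * m)) :=
        Nat.mul_le_mul_left _ (hc.trans (Nat.mul_le_mul (by omega) (by omega)))
    _ = 390 * (K * n) * m := by ring
    _ ≤ m ^ 2 := by rw [sq]; exact Nat.mul_le_mul_right _ (by omega)

end Vale.Agent.P144Z
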